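import Vale.Agent.P216.B7.Props
import Vale.Agent.P216.H971.LowGood

/-!
# P216-B7, Z10 (transgression): the geometry of the path spaces over the cyclic covering

All paths stay in the compact space `M`. `b ∈ Xt h` is fixed. A path `w ∈ PF b.1 t` has a unique
continuous height `f : ℝ → ℝ`, `h (w u) = ex (f u)`, `f = b.2` at the end; `lab h b w = (w 0, f 0)`
is its starting point in `Xt h ⊆ M × ℝ`. `Fb h b v t`: the paths which start at `v ∈ Xt h`.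
-/

set_option linter.all false

open Set BoundedContinuousFunction

namespace Vale.Agent.P216.H808

open Vale.Agent.P216.Sl Vale.Agent.P216.PS Vale.Agent.P216.B7
open Vale.Agent.P216.H456 (PF)
open Vale.Agent.P216.H971.Low (ExC)
open Vale.Agent.P216.AS (IsMap IsHtpy)
open Vale.Agent.P216.H901 (tr)
open Vale.Agent.P216.H971B (Om0)

section defs

variable {M : Type} [MetricSpace M]

/-- `f` is the height of the path `w` to `b`. -/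
def IsHt (h : C(M, Circle)) (b : M × ℝ) (w : ℝ →ᵇ M) (f : ℝ → ℝ) : Prop :=
  Continuous f ∧ (∀ u, h (w u) = ex (f u)) ∧ ∃ T, ∀ u, T ≤ u → f u = b.2

open Classical in
/-- The starting point in the covering of a path to `b`. -/
noncomputable def lab (h : C(M, Circle)) (b : M × ℝ) (w : ℝ →ᵇ M) : M × ℝ :=
  (w 0, if H : ∃ f, IsHt h b w f then H.choose 0 else 0)

/-- The paths to `b` whose starting point is `r`-close to all points of `σ`. -/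
def XS (h : C(M, Circle)) (b : M × ℝ) (σ : List (M × ℝ)) (r t : ℝ) : Set (ℝ →ᵇ M) :=
  {w | w ∈ PF b.1 t ∧ ∀ v ∈ σ, dist (lab h b w) v ≤ r}

/-- The paths from `v` to `b`. -/
def Fb (h : C(M, Circle)) (b v : M × ℝ) (t : ℝ) : Set (ℝ →ᵇ M) :=
  {w | w ∈ PF b.1 t ∧ lab h b w = v}

end defs

/-- **A** (labels). -/
def AGoal : Prop := ∀ (M : Type) [MetricSpace M] [CompactSpace M] (h : C(M, Circle)) (b : M × ℝ),
  b ∈ Xt h → ∀ t : ℝ, 0 ≤ t →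
    (∀ w ∈ PF b.1 t, ∃ f, IsHt h b w f) ∧
    (∀ w ∈ PF b.1 t, ∀ f, IsHt h b w f → lab h b w = (w 0, f 0)) ∧
    (∃ R, ∀ w ∈ PF b.1 t, lab h b w ∈ Slb h R) ∧
    (∀ ε > 0, ∃ δ > 0, ∀ w ∈ PF b.1 t, ∀ w' ∈ PF b.1 t, dist w w' < δ →
      dist (lab h b w) (lab h b w') < ε)

/-- **B** (the cohomology over a small set comes from the fibre over one of its points). -/
def BGoal : Prop := ∀ (M : Type) [MetricSpace M] [CompactSpace M] (ρ : ℝ), 0 < ρ →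
  LS.UniqSeg M ρ → ∀ h : C(M, Circle), ∃ c, 0 ≤ c ∧ ∀ r > 0, ∃ r' > 0, r' ≤ r ∧
    ∀ b ∈ Xt h, ∀ t : ℝ, 0 ≤ t → ∀ (σ : List (M × ℝ)), ∀ v ∈ σ, v ∈ Xt h →
      ∀ (k : Type) [Field k] (m : ℕ) (f : List (ℝ →ᵇ M) → k),
        CocL (XS h b σ r (t + c)) m f → ExC (Fb h b v (t + c)) m f → ExC (XS h b σ r' t) m f

/-- **A'** (the label of a concatenation). -/
def ACatGoal : Prop := ∀ (M : Type) [MetricSpace M] [CompactSpace M] (h : C(M, Circle)),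
  ∀ b ∈ Xt h, ∀ v ∈ Xt h, ∀ D t : ℝ, 0 ≤ D → 0 ≤ t → ∀ c ∈ PF v.1 D, ∀ w ∈ Fb h b v t,
    cat D c w ∈ PF b.1 (D + t) ∧ lab h b (cat D c w) = lab h v c

/-- **C** (the fibres are connected). -/
def CGoal : Prop := ∀ (M : Type) [MetricSpace M] [CompactSpace M] (ρ : ℝ), 0 < ρ →
  LS.UniqSeg M ρ → ∀ h : C(M, Circle), SimplyConnectedSpace (Xt h) → ∀ R t : ℝ, 0 ≤ t →
    ∃ t', t ≤ t' ∧ ∀ b ∈ Slb h R, ∀ v ∈ Slb h R, ∀ w ∈ Fb h b v t, ∀ w' ∈ Fb h b v t,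
      JoinedIn (Fb h b v t') w w'

/-- **D** (the fibres are not empty). -/
def DGoal : Prop := ∀ (M : Type) [MetricSpace M] [CompactSpace M] (ρ : ℝ), 0 < ρ →
  LS.UniqSeg M ρ → ∀ h : C(M, Circle), SimplyConnectedSpace (Xt h) → ∀ R : ℝ,
    ∃ m : ℕ, 1 ≤ m ∧ ∀ b ∈ Slb h R, ∀ v ∈ Slb h R, (Fb h b v m).Nonempty

/-- **E** (transport to the fibre over `a`). -/
def EGoal : Prop := ∀ (M : Type) [MetricSpace M] [CompactSpace M] (ρ : ℝ), 0 < ρ →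
  LS.UniqSeg M ρ → ∀ h : C(M, Circle), SimplyConnectedSpace (Xt h) → ∃ r₀ > 0, ∀ b ∈ Xt h,
    ∀ R t : ℝ, 0 ≤ t → ∃ T, t ≤ T ∧ ∀ a ∈ Slb h R, ∃ τ : M × ℝ → (ℝ →ᵇ M) → (ℝ →ᵇ M),
      (∀ v ∈ Slb h R, IsMap (tr (ℝ →ᵇ M)) (tr (ℝ →ᵇ M)) (XS h b [v] r₀ t) (Fb h b a T) (τ v)) ∧
      ∀ (k : Type) [Field k] (m : ℕ) (z : List (ℝ →ᵇ M) → k), CocL (Fb h b a T) m z →
        (∀ v ∈ Slb h R, ∀ v' ∈ Slb h R, dist v v' ≤ r₀ →
          ExC (Fb h b v t) m fun l => z (l.map (τ v')) - z (l.map (τ v))) ∧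
        ExC (Fb h b a t) m fun l => z (l.map (τ a)) - z l

/-- **L** (low degrees), the output of the zigzag. -/
def LGoal : Prop := ∀ (M : Type) [MetricSpace M] [CompactSpace M] (ρ : ℝ), 0 < ρ →
  LS.UniqSeg M ρ → ∀ h : C(M, Circle), SimplyConnectedSpace (Xt h) → ∀ (k : Type) [Field k]
  (q : ℕ), 1 ≤ q → (∀ j, 1 ≤ j → j ≤ q → NZ k h j) → ∀ b ∈ Xt h, ∀ j, j < q → ∀ R t : ℝ, 0 ≤ t →
    ∃ t', t ≤ t' ∧ ∀ v ∈ Slb h R, ∀ f : List (ℝ →ᵇ M) → k, CocL (Fb h b v t') j f →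
      ExC (Fb h b v t) j f

end Vale.Agent.P216.H808
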