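import Vale.Agent.P216.H808.Z10
import Vale.Agent.P216.H456Z.Lab
import Vale.Agent.P216.H126Z.C
import Vale.Agent.P216.B7893.G2
import Vale.Agent.P216.B7x754.B
import Vale.Agent.P216.H774E8.E

/-!
# P216-B7, Z10 (transgression), closed
-/

namespace Vale.Agent.P216.H808

theorem cGoal : CGoal :=
  H126Z.cGoal H456Z.aGoal fun M _ _ ρ hρ hU h hsc => B7893.g2Goal' hρ hU h hsc

theorem bGoal : BGoal := B7x754.bGoal H456Z.aGoal

theorem dGoal : DGoal := B7893.dGoal H456Z.aGoal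

theorem eGoal : EGoal := H774E8.eGoal H456Z.aGoal H456Z.aCatGoal cGoal dGoal

/-- **Z10.** -/
theorem z10Goal : B7.Z10Goal :=
  z10_of H456Z.aGoal H456Z.aCatGoal bGoal cGoal dGoal
    (lGoal H456Z.aGoal bGoal cGoal dGoal eGoal)

end Vale.Agent.P216.H808
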