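import Vale.Agent.P216.H808.Abs

/-!
# P216-B7, Z10: the zigzag in the other direction

`Good.exact`: if the first column of a closed double cochain is exact, the cochain on the base is
exact.
-/

set_option linter.unusedVariables false
set_option linter.unusedSectionVars false

open Set Finsupp Topology

namespace Vale.Agent.P216.H808.Zz

open Vale.Agent.P216.Sl Vale.Agent.P216.PS
open Vale.Agent.P216.H971.Low (ExC Dd kap dl_sub dl_zero dl_comm dl_kap kap_eq_zero kap_const
  dl_const dl_replicate neg_one_sq_pow mem_of_sub exists_eps ExC.exL exC_of_exL ExC.mono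
  ExC.congr ExC.add ExC.mul)

variable {k : Type} [Field k] {X E : Type} [MetricSpace X] [PseudoMetricSpace E]
  {XS : List X → ℕ → Set E} {F : Finset X} {N a i i' q : ℕ} {ζ ζ' : List X → List E → k}

/-- **The first column exact ⇒ the base cochain exact.** -/
theorem Good.exact (hX : Mono XS) (h : Good XS F (q + 2) (q + 2) q ζ) (hlow : LowV k XS F q)
    (hcol : ∀ v ∈ F, ExC (XS [v] q) q (ζ [v])) :
    ∃ β : List X → k, ∀ σ : List X, σ.length = q + 2 → (∀ v ∈ σ, v ∈ F) → (XS σ 0).Nonempty →
      ζ σ [] = dl β σ := by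
  classical
  obtain ⟨h1, h2, ε₀, hε₀, h3⟩ := h
  have key : ∀ a n : ℕ, 1 ≤ a → a + n = q + 1 → ∃ c : List X → List E → k, (∀ l, c [] l = 0) ∧
      ∃ ε > 0, ∀ σ l, σ ≠ [] → σ.length ≤ a → (∀ v ∈ σ, v ∈ F) → σ.length + l.length = q + 2 →
        SmL (XS σ n) ε l → ζ σ l = Dd c σ l := by
    intro a
    induction a with
    | zero => intro n h; omega
    | succ a ih =>
      intro n _ han
      rcases Nat.eq_zero_or_pos a with rfl | ha
      · obtain rfl : n = q := by omega
        have hch : ∀ v : X, ∃ g : List E → k, v ∈ F → ∃ ε > 0, ∀ l : List E, l.length = n + 1 →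
            SmL (XS [v] n) ε l → ζ [v] l = dl g l := fun v => by
          by_cases hv : v ∈ F
          · obtain ⟨g, hg⟩ := hcol v hv
            exact ⟨g, fun _ => hg⟩
          · exact ⟨fun _ => 0, fun h => absurd h hv⟩
        choose g hg using hch
        obtain ⟨ε, hε, h4⟩ := exists_eps F 1 (Q := fun σ ε => ∀ v, σ = [v] → ∀ l : List E,
            l.length = n + 1 → SmL (XS [v] n) ε l → ζ [v] l = dl (g v) l)
          (fun σ ε ε' hq _ hle v hv l hl hs => hq v hv l hl (hs.mono le_rfl hle))
          fun σ hσ hF => by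
            obtain ⟨v, rfl⟩ := List.length_eq_one_iff.1 hσ
            obtain ⟨ε, hε, h⟩ := hg v (hF v List.mem_cons_self)
            refine ⟨ε, hε, fun v' hv' l hl hs => ?_⟩
            obtain rfl : v = v' := by simpa using hv'
            exact h l hl hs
        refine ⟨col g, fun l => rfl, ε, hε, fun σ l hσ0 hσ hF hl hs => ?_⟩
        have hσ1 : σ.length = 1 := by
          have := List.length_pos_iff.2 hσ0
          omega
        have h5 := h4 σ hσ1 hF
        obtain ⟨v, rfl⟩ := List.length_eq_one_iff.1 hσ1
        rw [h5 v rfl l (by simp at hl; omega) hs]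
        unfold Dd
        rw [dl_one]
        have e : col g [v] = g v := rfl
        have e' : col g [] l = 0 := rfl
        rw [e, e', List.length_singleton]
        ring
      · obtain ⟨c, hc0, ε, hε, hc⟩ := ih (n + 1) ha (by omega)
        let e : List X → List E → k := fun σ l => ζ σ l - dl (fun τ => c τ l) σ
        have hch : ∀ σ : List X, ∃ g : List E → k, (σ.length = a + 1 → (∀ v ∈ σ, v ∈ F) →
            ∃ ε > 0, ∀ l, l.length = n + 1 → SmL (XS σ n) ε l → e σ l = dl g l) := by
          intro σ
          by_cases h1 : σ.length = a + 1 ∧ ∀ v ∈ σ, v ∈ F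
          swap
          · exact ⟨fun _ => 0, fun h2 h3 => absurd ⟨h2, h3⟩ h1⟩
          obtain ⟨hσ, hF⟩ := h1
          have hσ0 : σ ≠ [] := by
            rintro rfl
            simp at hσ
          have hC : CocL (XS σ (n + 1)) n (e σ) := by
            refine ⟨min ε₀ ε, lt_min hε₀ hε, fun l hl hs => ?_⟩
            show dl (fun l' => ζ σ l' - dl (fun τ => c τ l') σ) l = 0
            rw [dl_sub, dl_comm]
            have h4 := h3 σ l hσ0 (by omega) hF (by omega)
              ((hs.mono (hX _ _ _ _ (fun _ h => h) (by omega)) (min_le_left _ _)))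
            have h5 : dl (fun τ => ζ τ l) σ =
                dl (fun τ => dl (fun τ' => c τ' l) τ - (-1 : k) ^ a * dl (c τ) l) σ := by
              refine dl_congr fun τ hτ hm => ?_
              have hτa : τ.length = a := by omega
              rw [hc τ l (by rintro rfl; simp at hτa; omega) hτa.le (mem_of_sub hm hF) (by omega)
                (hs.mono (hX _ _ _ _ hm le_rfl) (min_le_right _ _))]
              unfold Dd
              rw [hτa]
            rw [dl_sub, dl_dl, dl_mul_left] at h5
            unfold Dd at h4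
            rw [h5, hσ, pow_succ] at h4
            have h6 := neg_one_sq_pow (k := k) a
            linear_combination ((-1 : k) ^ a) * h4 + (dl (fun τ => dl (c τ) l) σ - dl (ζ σ) l) * h6
          obtain ⟨g, hg⟩ := hlow n (by omega) σ hσ0 hF _ hC
          exact ⟨g, fun _ _ => hg⟩
        choose g hg using hch
        obtain ⟨ε', hε', h4⟩ := exists_eps F (a + 1) (Q := fun σ ε => ∀ l : List E,
            l.length = n + 1 → SmL (XS σ n) ε l → e σ l = dl (g σ) l)
          (fun σ ε ε' hq _ hle l hl hs => hq l hl (hs.mono le_rfl hle)) fun σ hσ hF => hg σ hσ hF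
        let c' : List X → List E → k := fun σ =>
          if σ.length = a + 1 then fun l => (-1 : k) ^ a * g σ l else c σ
        have hne : ∀ σ : List X, σ.length ≠ a + 1 → c' σ = c σ := fun σ hσ => if_neg hσ
        have heq : ∀ σ : List X, σ.length = a + 1 → c' σ = fun l => (-1 : k) ^ a * g σ l :=
          fun σ hσ => if_pos hσ
        refine ⟨c', fun l => ?_, min ε ε', lt_min hε hε', fun σ l hσ0 hσ hF hl hs => ?_⟩
        · rw [hne [] (by simp)]
          exact hc0 l
        · have e1 : dl (fun τ => c' τ l) σ = dl (fun τ => c τ l) σ :=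
            dl_congr fun τ hτ _ => by
              show c' τ l = c τ l
              rw [hne τ (by omega)]
          rcases hσ.lt_or_eq with h5 | h5
          · have h6 := hc σ l hσ0 (by omega) hF hl
              (hs.mono (hX _ _ _ _ (fun _ h => h) (by omega)) (min_le_left _ _))
            rw [h6]
            unfold Dd
            rw [e1, hne σ (by omega)]
          · have h6 := h4 σ h5 hF l (by omega) (hs.mono le_rfl (min_le_right _ _))
            have h7 : ζ σ l = e σ l + dl (fun τ => c τ l) σ := by
              show _ = ζ σ l - dl (fun τ => c τ l) σ + dl (fun τ => c τ l) σ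
              ring
            rw [h7, h6]
            unfold Dd
            rw [e1, heq σ h5, h5, dl_mul_left, pow_succ]
            have h8 := neg_one_sq_pow (k := k) a
            linear_combination (-dl (g σ) l) * h8
  obtain ⟨c, hc0, ε, hε, hc⟩ := key (q + 1) 0 (by omega) (by omega)
  refine ⟨fun τ => c τ [], fun σ hσ hF ⟨w, hw⟩ => ?_⟩
  have hsw : ∀ ε > 0, ∀ τ : List X, ∀ j, (∀ v ∈ τ, v ∈ σ) → SmL (XS τ j) ε [w] := by
    intro ε hε τ j hm
    refine ⟨fun u hu => ?_, fun u hu u' hu' => ?_⟩
    · obtain rfl : u = w := by simpa using hu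
      exact hX _ _ _ _ hm (Nat.zero_le j) hw
    · obtain rfl : u = w := by simpa using hu
      obtain rfl : u' = u := by simpa using hu'
      rwa [dist_self]
  have h4 := h3 σ [w] (by rintro rfl; simp at hσ) hσ.le hF (by simp [hσ])
    (hsw ε₀ hε₀ σ q fun _ h => h)
  have h5 : dl (fun τ => ζ τ [w]) σ =
      dl (fun τ => dl (fun τ' => c τ' [w]) τ - (-1 : k) ^ (q + 1) * c τ []) σ := by
    refine dl_congr fun τ hτ hm => ?_
    have hτa : τ.length = q + 1 := by omega
    rw [hc τ [w] (by rintro rfl; simp at hτa) hτa.le (mem_of_sub hm hF) (by simp [hτa])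
      (hsw ε hε τ 0 hm)]
    unfold Dd
    rw [hτa, dl_one]
  rw [dl_sub, dl_dl, dl_mul_left] at h5
  unfold Dd at h4
  rw [h5, hσ, dl_one] at h4
  have h6 := neg_one_sq_pow (k := k) (q + 1)
  rw [pow_succ (-1 : k) (q + 1)] at h4
  linear_combination ((-1 : k) ^ (q + 1)) * h4 + (dl (fun τ => c τ []) σ - ζ σ []) * h6

end Vale.Agent.P216.H808.Zz
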