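import Vale.Agent.P216.H808.Z10Props
import Vale.Agent.P216.H808.Abs2

/-!
# P216-B7, Z10: the low degrees (`LGoal`)
-/

set_option linter.all false

open Set Finsupp Topology BoundedContinuousFunction

namespace Vale.Agent.P216.H808

open Vale.Agent.P216.Sl Vale.Agent.P216.PS Vale.Agent.P216.B7
open Vale.Agent.P216.H456 (PF PF_mono)
open Vale.Agent.P216.H971.Low (ExC exC_of_exL ExC.mono ExC.congr ExC.add ExC.mul exL_PF
  coc0_joined exC_empty)
open Vale.Agent.P216.AS (IsMap IsHtpy)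
open Vale.Agent.P216.H901 (tr)

section

variable {M : Type} [MetricSpace M] {h : C(M, Circle)} {b v : M × ℝ} {σ τ : List (M × ℝ)}
  {r r' t t' R R' : ℝ}

theorem Slb_mono (hR : R ≤ R') : Slb h R ⊆ Slb h R' := fun p hp => ⟨hp.1, hp.2.trans hR⟩

theorem Fb_mono (ht : t ≤ t') : Fb h b v t ⊆ Fb h b v t' := fun w hw => ⟨PF_mono ht hw.1, hw.2⟩

theorem XS_mono (hs : ∀ v ∈ τ, v ∈ σ) (hr : r ≤ r') (ht : t ≤ t') :
    XS h b σ r t ⊆ XS h b τ r' t' :=
  fun w hw => ⟨PF_mono ht hw.1, fun v hv => (hw.2 v (hs v hv)).trans hr⟩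

theorem Fb_sub_XS {w : ℝ →ᵇ M} (hw : w ∈ XS h b σ r t) (hv : v ∈ σ) (hr : 2 * r ≤ r') :
    Fb h b v t' ⊆ XS h b σ r' t' := by
  intro u hu
  refine ⟨hu.1, fun v' hv' => ?_⟩
  rw [hu.2]
  have h1 := hw.2 v hv
  have h2 := hw.2 v' hv'
  have h3 := dist_triangle_left v v' (lab h b w)
  linarith

theorem isCompact_Slb [CompactSpace M] (h : C(M, Circle)) (R : ℝ) : IsCompact (Slb h R) := by
  have e : Slb h R = Xt h ∩ (univ ×ˢ Icc (-R) R) := by
    ext p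
    simp only [Slb, mem_setOf_eq, mem_inter_iff, mem_prod, mem_univ, true_and, mem_Icc, abs_le]
  have hX : IsClosed (Xt h) := by
    refine isClosed_eq (h.continuous.comp continuous_fst) ?_
    show Continuous fun p : M × ℝ => Circle.exp (2 * Real.pi * p.2)
    fun_prop
  rw [e]
  exact (isCompact_univ.prod isCompact_Icc).inter_left hX

/-- A finite net of a compact set through a given point. -/
theorem exists_netA {X : Type} [MetricSpace X] {A : Set X} (hA : IsCompact A) {x₁ : X}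
    (hx₁ : x₁ ∈ A) {δ : ℝ} (hδ : 0 < δ) : ∃ (F : Finset X) (φ : X → X),
    (∀ x ∈ F, x ∈ A) ∧ (∀ x ∈ A, φ x ∈ F) ∧ (∀ x ∈ A, dist x (φ x) ≤ δ) ∧ φ x₁ = x₁ := by
  classical
  obtain ⟨S, hSA, hS, hc⟩ := hA.finite_cover_balls hδ
  have h1 : ∀ x, ∃ y, x ∈ A → y ∈ S ∧ dist x y ≤ δ := fun x => by
    by_cases hx : x ∈ A
    · obtain ⟨y, hy, hxy⟩ := mem_iUnion₂.1 (hc hx)
      exact ⟨y, fun _ => ⟨hy, (Metric.mem_ball.1 hxy).le⟩⟩
    · exact ⟨x, fun h => absurd h hx⟩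
  choose ψ hψ using h1
  refine ⟨insert x₁ hS.toFinset, fun x => if x = x₁ then x₁ else ψ x, fun x hx => ?_,
    fun x hx => ?_, fun x hx => ?_, if_pos rfl⟩
  · rcases Finset.mem_insert.1 hx with rfl | hx
    · exact hx₁
    · exact hSA (hS.mem_toFinset.1 hx)
  · by_cases h : x = x₁
    · show (if x = x₁ then x₁ else ψ x) ∈ _
      rw [if_pos h]
      exact Finset.mem_insert_self _ _
    · show (if x = x₁ then x₁ else ψ x) ∈ _
      rw [if_neg h]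
      exact Finset.mem_insert_of_mem (hS.mem_toFinset.2 (hψ x hx).1)
  · by_cases h : x = x₁
    · show dist x (if x = x₁ then x₁ else ψ x) ≤ _
      rw [if_pos h, h, dist_self]
      exact hδ.le
    · show dist x (if x = x₁ then x₁ else ψ x) ≤ _
      rw [if_neg h]
      exact (hψ x hx).2

end

/-- The radii. -/
theorem exists_radii {Pr : ℝ → ℝ → Prop} (hPr : ∀ r > 0, ∃ r' > 0, r' ≤ r ∧ Pr r r')
    (hm : ∀ r r' r'', Pr r r' → 0 < r'' → r'' ≤ r' → Pr r r'') {r₀ : ℝ} (hr₀ : 0 < r₀) (j : ℕ) :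
    ∃ ρ : ℕ → ℝ, ρ (j + 1) = r₀ ∧ (∀ n, 0 < ρ n) ∧ Monotone ρ ∧
      ∀ n ≤ j, 2 * ρ n ≤ ρ (n + 1) ∧ Pr (ρ (n + 1)) (ρ n) := by
  have h1 : ∀ r : ℝ, ∃ r' : ℝ, 0 < r → 0 < r' ∧ r' ≤ r ∧ 2 * r' ≤ r ∧ Pr r r' := by
    intro r
    by_cases hr : 0 < r
    · obtain ⟨r', h0, h1, h2⟩ := hPr r hr
      refine ⟨min r' (r / 2), fun _ => ⟨lt_min h0 (half_pos hr), (min_le_left _ _).trans h1, ?_,
        hm _ _ _ h2 (lt_min h0 (half_pos hr)) (min_le_left _ _)⟩⟩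
      have := min_le_right r' (r / 2)
      linarith
    · exact ⟨0, fun h => absurd h hr⟩
  choose g hg using h1
  let s : ℕ → ℝ := fun i => Nat.rec r₀ (fun _ x => g x) i
  have hs0 : s 0 = r₀ := rfl
  have hs1 : ∀ i, s (i + 1) = g (s i) := fun i => rfl
  have hsp : ∀ i, 0 < s i := by
    intro i
    induction i with
    | zero => exact hr₀
    | succ i ih => rw [hs1]; exact (hg _ ih).1
  have hanti : Antitone s := antitone_nat_of_succ_le fun i => by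
    rw [hs1]
    exact (hg _ (hsp i)).2.1
  refine ⟨fun n => s (j + 1 - n), by simp [hs0], fun n => hsp _, fun a c hac => hanti (by omega),
    fun n hn => ?_⟩
  have e : j + 1 - n = (j + 1 - (n + 1)) + 1 := by omega
  show 2 * s (j + 1 - n) ≤ s (j + 1 - (n + 1)) ∧ Pr (s (j + 1 - (n + 1))) (s (j + 1 - n))
  rw [e, hs1]
  exact ⟨(hg _ (hsp _)).2.2.1, (hg _ (hsp _)).2.2.2⟩

/-- The times. -/
theorem exists_times {Q : ℕ → ℝ → ℝ → Prop} (hQ : ∀ n t, 0 ≤ t → ∃ t', t ≤ t' ∧ Q n t t')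
    {c T₀ : ℝ} (hc : 0 ≤ c) (hT₀ : 0 ≤ T₀) :
    ∃ T : ℕ → ℝ, T 0 = T₀ ∧ (∀ n, 0 ≤ T n) ∧ Monotone T ∧
      ∀ n, T n + c ≤ T (n + 1) ∧ Q n (T n + c) (T (n + 1)) := by
  have h1 : ∀ (n : ℕ) (t : ℝ), ∃ t' : ℝ, 0 ≤ t → t ≤ t' ∧ Q n t t' := by
    intro n t
    by_cases ht : 0 ≤ t
    · obtain ⟨t', h⟩ := hQ n t ht
      exact ⟨t', fun _ => h⟩
    · exact ⟨0, fun h => absurd h ht⟩
  choose g hg using h1
  let s : ℕ → ℝ := fun i => Nat.rec T₀ (fun n x => g n (x + c)) i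
  have hs1 : ∀ i, s (i + 1) = g i (s i + c) := fun i => rfl
  have hsp : ∀ i, 0 ≤ s i := by
    intro i
    induction i with
    | zero => exact hT₀
    | succ i ih =>
      rw [hs1]
      exact (by linarith : 0 ≤ s i + c).trans (hg i (s i + c) (by linarith)).1
  have hst : ∀ i, s i + c ≤ s (i + 1) := fun i => by
    rw [hs1]
    exact (hg i (s i + c) (by linarith [hsp i])).1
  refine ⟨s, rfl, hsp, monotone_nat_of_le_succ fun i => by linarith [hst i], fun n => ⟨hst n, ?_⟩⟩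
  rw [hs1]
  exact (hg n (s n + c) (by linarith [hsp n])).2

/-- **The low degrees.** -/
theorem lGoal (hA : AGoal) (hB : BGoal) (hC : CGoal) (hD : DGoal) (hE : EGoal) : LGoal := by
  intro M _ _ ρ₀ hρ₀ hU h hsc k _ q hq hNZ b hb j
  obtain ⟨c, hc, hB⟩ := hB M ρ₀ hρ₀ hU h
  obtain ⟨r₀, hr₀, hE⟩ := hE M ρ₀ hρ₀ hU h hsc
  induction j using Nat.strong_induction_on with
  | _ j ih =>
  intro hjq R t ht
  rcases Nat.eq_zero_or_pos j with rfl | hj
  · obtain ⟨t', ht', H⟩ := hC M ρ₀ hρ₀ hU h hsc (max R |b.2|) t ht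
    refine ⟨t', ht', fun v hv f hf => ?_⟩
    rcases (Fb h b v t).eq_empty_or_nonempty with h0 | ⟨u, hu⟩
    · rw [h0]
      exact exC_empty
    · refine ⟨fun _ => f [u], 1, one_pos, fun l hl hs => ?_⟩
      obtain ⟨w, rfl⟩ := List.length_eq_one_iff.1 hl
      rw [dl_one]
      exact coc0_joined hf (H b ⟨hb, le_max_right _ _⟩ v (Slb_mono (le_max_left _ _) hv) w
        (hs.1 w List.mem_cons_self) u hu)
  -- the regions
  obtain ⟨-, -, ⟨R₁, hR₁⟩, huc⟩ := hA M h b hb t ht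
  obtain ⟨R₂, hR₂, hN⟩ := hNZ (j + 1) (by omega) (by omega) (max R R₁)
  obtain ⟨m, hm, hne⟩ := hD M ρ₀ hρ₀ hU h hsc (max R₂ |b.2|)
  -- the radii
  let Pr : ℝ → ℝ → Prop := fun r r' => ∀ t : ℝ, 0 ≤ t → ∀ (σ : List (M × ℝ)), ∀ v ∈ σ, v ∈ Xt h →
      ∀ (m : ℕ) (f : List (ℝ →ᵇ M) → k),
        CocL (XS h b σ r (t + c)) m f → ExC (Fb h b v (t + c)) m f → ExC (XS h b σ r' t) m f
  obtain ⟨ρ, hρj, hρ0, hρm, hρ⟩ := exists_radii (Pr := Pr) (fun r hr => by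
      obtain ⟨r', h1, h2, h3⟩ := hB r hr
      exact ⟨r', h1, h2, fun t ht σ v hv hvX m f => h3 b hb t ht σ v hv hvX k m f⟩)
    (fun r r' r'' h1 h2 h3 t ht σ v hv hvX m f hf hf' =>
      (h1 t ht σ v hv hvX m f hf hf').mono (XS_mono (fun _ h => h) h3 le_rfl)) hr₀ j
  -- the times
  obtain ⟨T, hT0, hTn, hTm, hT⟩ := exists_times (Q := fun n t t' => n < j → ∀ v ∈ Slb h R₂,
      ∀ f : List (ℝ →ᵇ M) → k, CocL (Fb h b v t') n f → ExC (Fb h b v t) n f)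
    (fun n t ht => by
      by_cases hn : n < j
      · obtain ⟨t', h1, h2⟩ := ih n hn (by omega) R₂ t ht
        exact ⟨t', h1, fun _ => h2⟩
      · exact ⟨t, le_rfl, fun h => absurd h hn⟩) (c := c) (T₀ := max t m) hc
    (ht.trans (le_max_left _ _))
  obtain ⟨TE, hTE, hE⟩ := hE b hb R₂ (T (j + 1)) (hTn _)
  have htT : t ≤ T 0 := by rw [hT0]; exact le_max_left _ _
  refine ⟨TE, htT.trans ((hTm (Nat.zero_le _)).trans hTE), fun x₁ hx₁ z hz => ?_⟩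
  have hx₁' : x₁ ∈ Slb h R₂ := Slb_mono ((le_max_left R R₁).trans hR₂) hx₁
  obtain ⟨τ, hτ, hE⟩ := hE x₁ hx₁'
  obtain ⟨hE1, hE2⟩ := hE k j z hz
  obtain ⟨F, φ, hFA, hφF, hφ, hφ₁⟩ := exists_netA (isCompact_Slb h R₂) hx₁' (half_pos (hρ0 0))
  let XSf : List (M × ℝ) → ℕ → Set (ℝ →ᵇ M) := fun σ i => XS h b σ (ρ i) (T i)
  have hX : Zz.Mono XSf := fun σ τ i i' h1 h2 => XS_mono h1 (hρm h2) (hTm h2)
  have hlow : Zz.LowV k XSf F j := by
    intro n hn σ hσ hσF f hf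
    obtain ⟨v, hv⟩ := List.exists_mem_of_ne_nil σ hσ
    rcases (XSf σ n).eq_empty_or_nonempty with h0 | ⟨w, hw⟩
    · rw [h0]
      exact exC_empty
    have hvA := hFA v (hσF v hv)
    refine (hρ n hn.le).2 (T n) (hTn n) σ v hv hvA.1 n f
      (hf.mono (XS_mono (fun _ h => h) le_rfl (hT n).1)) ?_
    exact (hT n).2 hn v hvA f (hf.mono (Fb_sub_XS hw hv (hρ n hn.le).1))
  have hz1 : ∀ v ∈ F, CocL (XSf [v] (j + 1)) j fun l => z (l.map (τ v)) := by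
    intro v hv
    have := hz.map (hτ v (hFA v hv))
    show CocL (XS h b [v] (ρ (j + 1)) (T (j + 1))) j _
    rw [hρj]
    exact this
  have hzz : ∀ v ∈ F, ∀ v' ∈ F, ExC (XSf [v, v'] j) j
      fun l => z (l.map (τ v')) - z (l.map (τ v)) := by
    intro v hv v' hv'
    rcases (XSf [v, v'] j).eq_empty_or_nonempty with h0 | ⟨w, hw⟩
    · rw [h0]
      exact exC_empty
    have hd : dist v v' ≤ r₀ := by
      have h1 := hw.2 v (by simp)
      have h2 := hw.2 v' (by simp)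
      have h3 := dist_triangle_left v v' (lab h b w)
      have h4 := (hρ j le_rfl).1
      rw [hρj] at h4
      linarith
    refine (hρ j le_rfl).2 (T j) (hTn j) [v, v'] v (by simp) (hFA v hv).1 j _ ?_ ?_
    · have h1 : CocL (XS h b [v, v'] (ρ (j + 1)) (T j + c)) j fun l => z (l.map (τ v')) :=
        (hz1 v' hv').mono (XS_mono (by simp) le_rfl (hT j).1)
      have h2 : CocL (XS h b [v, v'] (ρ (j + 1)) (T j + c)) j fun l => z (l.map (τ v)) :=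
        (hz1 v hv).mono (XS_mono (by simp) le_rfl (hT j).1)
      obtain ⟨ε, hε, h1⟩ := h1
      obtain ⟨ε', hε', h2⟩ := h2
      refine ⟨min ε ε', lt_min hε hε', fun l hl hs => ?_⟩
      rw [Vale.Agent.P216.H971.Low.dl_sub, h1 l hl (hs.mono le_rfl (min_le_left _ _)),
        h2 l hl (hs.mono le_rfl (min_le_right _ _)), sub_zero]
    · exact (hE1 v (hFA v hv) v' (hFA v' hv') hd).mono (Fb_mono (hT j).1)
  obtain ⟨ζ, hζ, hζ1⟩ := Zz.exists_good hX hlow hz1 hzz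
  have hct := hζ.cocL_ct hX (A := Slb h R₂) hφF ⟨ρ 0 / 2, half_pos (hρ0 0), fun l hl hs => by
    obtain ⟨x, hx⟩ := List.exists_mem_of_ne_nil l hl
    obtain ⟨w, hw1, hw2⟩ := hne b ⟨hb, le_max_right _ _⟩ x (Slb_mono (le_max_left _ _) (hs.1 x hx))
    refine ⟨w, PF_mono (by rw [hT0]; exact le_max_right _ _) hw1, fun v hv => ?_⟩
    obtain ⟨y, hy, rfl⟩ := List.mem_map.1 hv
    rw [hw2]
    have h1 := hs.2 x hx y hy
    have h2 := hφ y (hs.1 y hy)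
    have h3 := dist_triangle x y (φ y)
    linarith⟩
  have hex := hN _ hct
  obtain ⟨δ, hδ, huc'⟩ := huc (ρ 0 / 2) (half_pos (hρ0 0))
  have h5 := hζ.exC (A := Slb h (max R R₁)) (lab := lab h b) (Y := PF b.1 t) (x₁ := x₁) (φ := φ)
    (fun x hx => hφF x (Slb_mono hR₂ hx)) (fun w hw => Slb_mono (le_max_right _ _) (hR₁ w hw))
    huc ⟨δ, hδ, fun w hw l hl => ?_⟩ (fun f hf => exC_of_exL (exL_PF b.1 ht hj hf)) hφ₁
    (exC_of_exL hex)
  · have h6 := hE2.mono (Fb_mono (t := t) (htT.trans (hTm (Nat.zero_le _))))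
    have h7 : ExC (Fb h b x₁ t) j (ζ [x₁]) := h5
    rw [hζ1] at h7
    refine ((h7.add (h6.mul (-1)))).congr fun l _ => ?_
    ring
  · refine ⟨PF_mono htT hw, fun v hv => ?_⟩
    obtain ⟨y, hy, rfl⟩ := List.mem_map.1 hv
    have h1 := huc' w hw y (hl y hy).1 (hl y hy).2
    have h2 := hφ (lab h b y) (Slb_mono ((le_max_right _ _).trans hR₂) (hR₁ y (hl y hy).1))
    have h3 := dist_triangle (lab h b w) (lab h b y) (φ (lab h b y))
    show dist (lab h b w) (φ (lab h b y)) ≤ ρ 0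
    linarith

end Vale.Agent.P216.H808
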