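import Vale.Agent.P216.H808.Zt

/-!
# P216-B7, Z10: the transgression
-/

set_option linter.all false

open Set Finsupp Topology BoundedContinuousFunction

namespace Vale.Agent.P216.H808

open Vale.Agent.P216.Sl Vale.Agent.P216.PS Vale.Agent.P216.B7
open Vale.Agent.P216.H456 (PF PF_mono mem_PF_iff)
open Vale.Agent.P216.MV337 (evz)
open Vale.Agent.P216.H971.Low (ExC exC_of_exL ExC.mono ExC.congr ExC.add ExC.mul exL_PF
  coc0_joined exC_empty Dd dl_const neg_one_sq_pow)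
open Vale.Agent.P216.AS (IsMap IsHtpy)
open Vale.Agent.P216.H901 (tr)
open Vale.Agent.P216.H971B (Om0)

section

variable {M : Type} [MetricSpace M] [CompactSpace M] {h : C(M, Circle)} {b v : M × ℝ}
  {t t' R : ℝ} {k : Type} [Field k]

theorem lab_fst (hA : AGoal) (hb : b ∈ Xt h) (ht : 0 ≤ t) {w : ℝ →ᵇ M} (hw : w ∈ PF b.1 t) :
    (lab h b w).1 = w 0 := by
  obtain ⟨f, hf⟩ := (hA M h b hb t ht).1 w hw
  rw [(hA M h b hb t ht).2.1 w hw f hf]

theorem Fb_sub_P (hA : AGoal) (hb : b ∈ Xt h) (ht : 0 ≤ t) {w : ℝ →ᵇ M} (hw : w ∈ Fb h b v t) :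
    w ∈ P v.1 b.1 t := by
  have h1 := mem_PF_iff.1 hw.1
  rw [← lab_fst hA hb ht hw.1, hw.2] at h1
  exact h1

/-- The constant path. -/
theorem cst_mem_Fb (hA : AGoal) (hb : b ∈ Xt h) (ht : 0 ≤ t) : cst b.1 ∈ Fb h b b t := by
  have h0 : cst b.1 ∈ PF b.1 t :=
    ⟨fun u v => by show dist b.1 b.1 ≤ _; rw [dist_self]; exact abs_nonneg _, fun _ _ => rfl,
      fun _ _ => rfl⟩
  refine ⟨h0, ?_⟩
  have h1 := (hA M h b hb t ht).2.1 _ h0 (fun _ => b.2) ⟨continuous_const, fun u => hb, 0,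
    fun _ _ => rfl⟩
  rw [h1]
  rfl

/-- Labelled loops are null-homotopic later. -/
theorem Fb_sub_Om0 (hA : AGoal) (hb : b ∈ Xt h) (ht : 0 ≤ t) {T : ℕ} (hT : t' ≤ T)
    (htt : t ≤ t')
    (H : ∀ w ∈ Fb h b b t, ∀ w' ∈ Fb h b b t, JoinedIn (Fb h b b t') w w') :
    Fb h b b t ⊆ Om0 M b.1 T := by
  intro w hw
  have hsub : Fb h b b t' ⊆ P b.1 b.1 (T : ℝ) := by
    intro u hu
    have h1 := mem_PF_iff.1 hu.1
    have ht0 : 0 ≤ t' := ht.trans htt
    have h2 : u 0 = b.1 := by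
      obtain ⟨f, hf⟩ := (hA M h b hb t' ht0).1 u hu.1
      have h3 := (hA M h b hb t' ht0).2.1 u hu.1 f hf
      have h4 := hu.2
      rw [h3] at h4
      exact congrArg Prod.fst h4
    rw [h2] at h1
    exact P_mono hT h1
  have hj := H w hw _ (cst_mem_Fb hA hb ht)
  exact ⟨hsub (Fb_mono htt hw), hj.mono hsub⟩

/-- A fixed path in front. -/
theorem exC_front {N m q : ℕ} {τ : ℝ} {U : List M → k} (nU : Nrm U) (hq : 1 ≤ q)
    {γ : ℝ →ᵇ M} {S : Set (ℝ →ᵇ M)} (hτ : 0 ≤ τ) (hγ : γ ∈ P b.1 v.1 (m : ℝ))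
    (hFv : ∀ w ∈ Fb h b v τ, w ∈ P v.1 b.1 τ)
    (hS : ∀ w ∈ Fb h b v τ, cat m γ w ∈ S) (he : ExL S q (H140.eta N U)) :
    ExC (Fb h b v τ) q (H140.eta N U) := by
  obtain ⟨g, -, ε, hε, hg⟩ := he
  refine ⟨fun l => g (l.map (cat m γ)), ε, hε, fun l hl hs => ?_⟩
  have hl2 : 2 ≤ l.length := by omega
  have hvw : ∀ w ∈ l, γ m = w 0 := fun w hw => by
    rw [eq_right hγ le_rfl, eq_left (hFv w (hs.1 w hw)) le_rfl]
  have e1 : H140.eta N U (l.map (cat m γ)) = H140.eta N U l := by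
    refine H977C.eta_front N nU m (fun u => γ u) (cat m γ) l hl2 fun w hw => ⟨fun u h0 hu => ?_,
      fun u hu => ?_⟩
    · rw [cat_apply hγ.1 (hFv w (hs.1 w hw)).1 (hvw w hw), catf_left hu]
    · rw [cat_apply hγ.1 (hFv w (hs.1 w hw)).1 (hvw w hw), catf_right (hvw w hw) hu]
  have e2 : dl (fun l => g (l.map (cat m γ))) l = dl g (l.map (cat m γ)) := dl_map g (cat m γ) l
  rw [← e1, e2]
  refine hg _ (by rw [List.length_map]; exact hl) ⟨fun w hw => ?_, fun w hw w' hw' => ?_⟩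
  · obtain ⟨u, hu, rfl⟩ := List.mem_map.1 hw
    exact hS u (hs.1 u hu)
  · obtain ⟨u, hu, rfl⟩ := List.mem_map.1 hw
    obtain ⟨u', hu', rfl⟩ := List.mem_map.1 hw'
    refine (dist_cat_cat_le hγ.1 hγ.1 (hFv u (hs.1 u hu)).1 (hFv u' (hs.1 u' hu')).1 (hvw u hu)
      (hvw u' hu')).trans_lt ?_
    rw [dist_self]
    exact max_lt hε (hs.2 u hu u' hu')

end

/-- **Z10.** -/
theorem z10_of (hA : AGoal) (hA' : ACatGoal) (hB : BGoal) (hC : CGoal) (hD : DGoal)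
    (hL : LGoal) : Z10Goal := by
  intro M _ _ _ ρ₀ hρ₀ hUs h hsc k _ q hq hNZ U nU hUc ⟨R, hR⟩ x
  by_contra hcon
  push Not at hcon
  -- the base point
  obtain ⟨y, hy⟩ : ∃ y : ℝ, h x = ex y := by
    obtain ⟨z, hz⟩ := Circle.exp_surjective (h x)
    refine ⟨z / (2 * Real.pi), ?_⟩
    unfold ex
    rw [mul_div_cancel₀ _ (by positivity), hz]
  set b : M × ℝ := (x, y) with hbdef
  have hb : b ∈ Xt h := hy
  obtain ⟨ε₁, hε₁, hUc⟩ := hUc
  have hU3 : ∀ l : List M, l.length = q + 3 → (∀ x ∈ l, ∀ y ∈ l, dist x y < ε₁) → dl U l = 0 :=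
    fun l hl hs => hUc l (by omega) ⟨fun _ _ => mem_univ _, hs⟩
  obtain ⟨c, hc, hB⟩ := hB M ρ₀ hρ₀ hUs h
  -- the constants
  set R' : ℝ := max R |b.2| with hR'
  have hbR : b ∈ Slb h R' := ⟨hb, le_max_right _ _⟩
  have hRR : Slb h R ⊆ Slb h R' := Slb_mono (le_max_left _ _)
  obtain ⟨m, hm, hne⟩ := hD M ρ₀ hρ₀ hUs h hsc R'
  let Pr : ℝ → ℝ → Prop := fun r r' => ∀ t : ℝ, 0 ≤ t → ∀ (σ : List (M × ℝ)), ∀ v ∈ σ, v ∈ Xt h →
      ∀ (m : ℕ) (f : List (ℝ →ᵇ M) → k),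
        CocL (XS h b σ r (t + c)) m f → ExC (Fb h b v (t + c)) m f → ExC (XS h b σ r' t) m f
  obtain ⟨ρ, hρj, hρ0, hρm, hρ⟩ := exists_radii (Pr := Pr) (fun r hr => by
      obtain ⟨r', h1, h2, h3⟩ := hB r hr
      exact ⟨r', h1, h2, fun t ht σ v hv hvX m f => h3 b hb t ht σ v hv hvX k m f⟩)
    (fun r r' r'' h1 h2 h3 t ht σ v hv hvX m f hf hf' =>
      (h1 t ht σ v hv hvX m f hf hf').mono (XS_mono (fun _ h => h) h3 le_rfl))
    (show 0 < ε₁ / 4 by positivity) q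
  obtain ⟨T, hT0, hTn, hTm, hT⟩ := exists_times (Q := fun n t t' => n < q → ∀ v ∈ Slb h R,
      ∀ f : List (ℝ →ᵇ M) → k, CocL (Fb h b v t') n f → ExC (Fb h b v t) n f)
    (fun n t ht => by
      by_cases hn : n < q
      · obtain ⟨t', h1, h2⟩ := hL M ρ₀ hρ₀ hUs h hsc k q hq hNZ b hb n hn R t ht
        exact ⟨t', h1, fun _ => h2⟩
      · exact ⟨t, le_rfl, fun h => absurd h hn⟩) (c := c) (T₀ := (m : ℝ)) hc (Nat.cast_nonneg m)
  set τ : ℝ := T q + c with hτdef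
  have hτ : 0 ≤ τ := by linarith [hTn q]
  obtain ⟨t₂, ht₂, hjoin⟩ := hC M ρ₀ hρ₀ hUs h hsc R' (m + τ) (by positivity)
  -- the class
  obtain ⟨N, hN, hex⟩ := hcon ⌈t₂⌉₊ ⌈4 / ε₁⌉₊
  have hNε : 1 / ((N : ℝ) + 1) < ε₁ / 4 := by
    have h1 : 4 / ε₁ ≤ N := (Nat.le_ceil _).trans (by exact_mod_cast hN)
    rw [div_lt_div_iff₀ (by positivity) (by norm_num)]
    rw [div_le_iff₀ hε₁] at h1
    nlinarith
  obtain ⟨-, hη, -, -, -⟩ := H977C.etaOut k M (q + 1) N ε₁ U (by omega) hε₁ nU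
    (fun l hl hs => hUc l hl hs) hNε
  set η := H140.eta N U with hηdef
  set s : k := (-1) ^ (q + 1) with hs
  have hs0 : s ≠ 0 := pow_ne_zero _ (neg_ne_zero.2 one_ne_zero)
  have hη' : ∀ (T : ℝ) (l : List (ℝ →ᵇ M)), l.length = q + 2 → SmL (PF b.1 T) (ε₁ / 4) l →
      dl η l = s * U (l.map evz) := fun T l hl hs => hη b.1 T l hl hs
  have hlab : ∀ t : ℝ, 0 ≤ t → ∀ w ∈ PF b.1 t, (lab h b w).1 = w 0 :=
    fun t ht w hw => lab_fst hA hb ht hw
  -- the fibres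
  have hfib : ∀ v ∈ Slb h R, ExC (Fb h b v τ) q η := by
    intro v hv
    obtain ⟨γ, hγ1, hγ2⟩ := hne v (hRR hv) b hbR
    have hγ : γ ∈ P b.1 v.1 (m : ℝ) := Fb_sub_P hA hv.1 (Nat.cast_nonneg m) ⟨hγ1, hγ2⟩
    refine exC_front (m := m) nU hq hτ hγ (fun w hw => Fb_sub_P hA hb hτ hw) (fun w hw => ?_) hex
    have h1 := hA' M h b hb v hv.1 m τ (Nat.cast_nonneg m) hτ γ hγ1 w hw
    refine Fb_sub_Om0 hA hb (t := m + τ) (by positivity) (Nat.le_ceil t₂) ht₂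
      (hjoin b hbR b hbR) ⟨h1.1, ?_⟩
    rw [h1.2, hγ2]
  -- the double cochain
  rcases (Slb h R).eq_empty_or_nonempty with hemp | ⟨x₁, hx₁⟩
  · refine hR ⟨fun _ => 0, fun _ _ => rfl, 1, one_pos, fun l hl hs => ?_⟩
    obtain ⟨z, hz⟩ := List.exists_mem_of_ne_nil l (by rintro rfl; simp at hl)
    exact absurd (hs.1 z hz) (by rw [hemp]; exact notMem_empty z)
  obtain ⟨F, φ, hFA, hφF, hφ, hφ₁⟩ := exists_netA (isCompact_Slb h R) hx₁ (half_pos (hρ0 0))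
  let XSf : List (M × ℝ) → ℕ → Set (ℝ →ᵇ M) := fun σ i => XS h b σ (ρ i) (T i)
  have hX : Zz.Mono XSf := fun σ τ i i' h1 h2 => XS_mono h1 (hρm h2) (hTm h2)
  have hlow : Zz.LowV k XSf F q := by
    intro n hn σ hσ hσF f hf
    obtain ⟨v, hv⟩ := List.exists_mem_of_ne_nil σ hσ
    rcases (XSf σ n).eq_empty_or_nonempty with h0 | ⟨w, hw⟩
    · rw [h0]
      exact exC_empty
    have hvA := hFA v (hσF v hv)
    refine (hρ n hn.le).2 (T n) (hTn n) σ v hv hvA.1 n f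
      (hf.mono (XS_mono (fun _ h => h) le_rfl (hT n).1)) ?_
    exact (hT n).2 hn v hvA f (hf.mono (Fb_sub_XS hw hv (hρ n hn.le).1))
  -- smallness
  have hρq : ∀ i ≤ q + 1, ρ i ≤ ε₁ / 4 := fun i hi => by rw [← hρj]; exact hρm hi
  have hsm : ∀ (σ : List (M × ℝ)) (r t : ℝ) (l : List (ℝ →ᵇ M)), 0 ≤ t → σ ≠ [] → r ≤ ε₁ / 4 →
      l ≠ [] → SmL (XS h b σ r t) (ε₁ / 4) l →
      ∀ x ∈ σ.map Prod.fst ++ l.map evz, ∀ y ∈ σ.map Prod.fst ++ l.map evz, dist x y < ε₁ := by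
    intro σ r t l ht hσ hr hl hs
    have h1 : ∀ w ∈ l, ∀ v ∈ σ, dist (w 0) v.1 ≤ ε₁ / 4 := by
      intro w hw v hv
      have h2 := (hs.1 w hw).2 v hv
      have h3 := hlab t ht w (hs.1 w hw).1
      rw [← h3]
      exact (le_max_left _ _).trans (h2.trans hr)
    have h2 : ∀ w ∈ l, ∀ w' ∈ l, dist (w 0) (w' 0) < ε₁ / 4 := fun w hw w' hw' =>
      (BoundedContinuousFunction.dist_coe_le_dist 0).trans_lt (hs.2 w hw w' hw')
    obtain ⟨w₀, hw₀⟩ := List.exists_mem_of_ne_nil l hl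
    intro x hx y hy
    rcases List.mem_append.1 hx with hx | hx <;> rcases List.mem_append.1 hy with hy | hy
    · obtain ⟨v, hv, rfl⟩ := List.mem_map.1 hx
      obtain ⟨v', hv', rfl⟩ := List.mem_map.1 hy
      have h3 := dist_triangle_left v.1 v'.1 (w₀ 0)
      linarith [h1 w₀ hw₀ v hv, h1 w₀ hw₀ v' hv']
    · obtain ⟨v, hv, rfl⟩ := List.mem_map.1 hx
      obtain ⟨w, hw, rfl⟩ := List.mem_map.1 hy
      have h3 := h1 w hw v hv
      rw [dist_comm]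
      show dist (w 0) v.1 < ε₁
      linarith
    · obtain ⟨w, hw, rfl⟩ := List.mem_map.1 hx
      obtain ⟨v, hv, rfl⟩ := List.mem_map.1 hy
      have h3 := h1 w hw v hv
      show dist (w 0) v.1 < ε₁
      linarith
    · obtain ⟨w, hw, rfl⟩ := List.mem_map.1 hx
      obtain ⟨w', hw', rfl⟩ := List.mem_map.1 hy
      have h3 := h2 w hw w' hw'
      show dist (w 0) (w' 0) < ε₁
      linarith
  set ζ : List (M × ℝ) → List (ℝ →ᵇ M) → k := zt s U η with hζdef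
  have hgood : Zz.Good XSf F (q + 2) (q + 2) q ζ := by
    refine ⟨fun l => if_pos (by simp), fun v n hn l => zt_replicate nU v hn l, ε₁ / 4,
      by positivity, fun σ l hσ0 hσ hσF hl hs => ?_⟩
    have hl0 : l ≠ [] := by
      rintro rfl
      simp at hl
      omega
    exact dd_zt hU3 hσ0 (by omega) (hsm σ (ρ q) (T q) l (hTn q) hσ0 (hρq q (by omega)) hl0 hs)
      fun h1 => hη' (T q) l (by omega) ⟨fun w hw => (hs.1 w hw).1, hs.2⟩
  have hcol : ∀ v ∈ F, ExC (XSf [v] q) q (ζ [v]) := by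
    intro v hv
    have hvA := hFA v hv
    refine (hρ q le_rfl).2 (T q) (hTn q) [v] v (by simp) hvA.1 q _ ?_ ?_
    · refine ⟨ε₁ / 4, by positivity, fun l hl hs => ?_⟩
      have hl0 : l ≠ [] := by
        rintro rfl
        simp at hl
      exact coc_zt_one hU3 v hl (hsm [v] (ρ (q + 1)) (T q + c) l hτ (by simp) (hρq _ le_rfl) hl0 hs)
        (hη' (T q + c) l hl ⟨fun w hw => (hs.1 w hw).1, hs.2⟩)
    · obtain ⟨g, ε, hε, hg⟩ := hfib v hvA
      refine ⟨g, ε, hε, fun l hl hs => ?_⟩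
      rw [← hg l hl hs]
      show zt s U η [v] l = η l
      rw [zt_one]
      obtain ⟨w, l', rfl⟩ : ∃ w l', l = w :: l' := by
        rcases l with _ | ⟨w, l'⟩
        · simp at hl
        · exact ⟨w, l', rfl⟩
      have h1 : w 0 = v.1 := by
        have := hs.1 w List.mem_cons_self
        rw [← hlab τ hτ w this.1, this.2]
      have h2 : U (v.1 :: (w :: l').map evz) = 0 := by
        refine nU _ fun hc => ?_
        rw [List.map_cons, List.isChain_cons_cons] at hc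
        exact hc.1 h1.symm
      rw [h2]
      ring
  obtain ⟨β, hβ⟩ := hgood.exact hX hlow hcol
  -- the base
  have hbase : ExC (Slb h R) (q + 1) fun l => U (l.map fun x => (φ x).1) := by
    refine ⟨fun l => ((-1 : k) ^ (q + 2) * s)⁻¹ * β (l.map φ), ρ 0 / 2, half_pos (hρ0 0),
      fun l hl hs => ?_⟩
    have hl2 : (l.map φ).length = q + 2 := by rw [List.length_map]; omega
    have h1 := hβ (l.map φ) hl2 (fun v hv => by
      obtain ⟨y, hy, rfl⟩ := List.mem_map.1 hv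
      exact hφF y (hs.1 y hy)) (by
      obtain ⟨x, hx⟩ := List.exists_mem_of_ne_nil l (by rintro rfl; simp at hl)
      obtain ⟨w, hw1, hw2⟩ := hne b hbR x (hRR (hs.1 x hx))
      refine ⟨w, by rw [hT0]; exact hw1, fun v hv => ?_⟩
      obtain ⟨y, hy, rfl⟩ := List.mem_map.1 hv
      rw [hw2]
      have h1 := hs.2 x hx y hy
      have h2 := hφ y (hs.1 y hy)
      have h3 := dist_triangle x y (φ y)
      linarith)
    have h2 : ζ (l.map φ) [] = (-1 : k) ^ (q + 2) * (s * U (l.map fun x => (φ x).1)) := by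
      rw [hζdef, zt_ge (by omega), hl2, List.map_nil, List.append_nil, List.map_map]
      rfl
    have h3 : dl (fun l => ((-1 : k) ^ (q + 2) * s)⁻¹ * β (l.map φ)) l =
        ((-1 : k) ^ (q + 2) * s)⁻¹ * dl β (l.map φ) := by
      rw [dl_mul_left]
      congr 1
      exact dl_map β φ l
    rw [h3, ← h1, h2]
    have h4 : (-1 : k) ^ (q + 2) * s ≠ 0 :=
      mul_ne_zero (pow_ne_zero _ (neg_ne_zero.2 one_ne_zero)) hs0
    field_simp
  have hclose : ExC (Slb h R) (q + 1) fun l => U (l.map fun x => (φ x).1) -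
      U (l.map fun x => x.1) := by
    have h0 : ρ 0 ≤ ε₁ / 4 := hρq 0 (by omega)
    have hH : Hm U (Slb h R) (ε₁ / 4) (q + 1) (fun x : M × ℝ => x.1) fun x => (φ x).1 := by
      refine Hm.of_close (X' := univ) (ε := ε₁) (fun _ _ => mem_univ _) (fun _ _ => mem_univ _)
        (fun x hx y hy hxy => ?_) fun l hl hs => hUc l hl hs
      have h1 : dist x.1 y.1 ≤ dist x y := le_max_left _ _
      have h2 : dist x.1 (φ x).1 ≤ dist x (φ x) := le_max_left _ _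
      have h3 : dist y.1 (φ y).1 ≤ dist y (φ y) := le_max_left _ _
      have h4 := hφ x hx
      have h5 := hφ y hy
      have h6 := dist_triangle x.1 y.1 (φ y).1
      have h7 := dist_triangle (φ x).1 x.1 (φ y).1
      rw [dist_comm (φ x).1 x.1] at h7
      refine ⟨by linarith, by linarith, by linarith⟩
    obtain ⟨g, hg⟩ := hH
    exact ⟨g, ε₁ / 4, by positivity, hg⟩
  refine hR (((hbase.add (hclose.mul (-1))).congr (f' := fun l => U (l.map Prod.fst))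
    fun l _ => ?_).exL (by omega))
  show U (l.map Prod.fst) = _
  ring

end Vale.Agent.P216.H808
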