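import Vale.Agent.P216.H808.LowZ
import Vale.Agent.P216.H977C.Eta

/-!
# P216-B7, Z10: the explicit double cochain of the class `U`
-/

set_option linter.all false

open Set Finsupp Topology BoundedContinuousFunction

namespace Vale.Agent.P216.H808

open Vale.Agent.P216.Sl Vale.Agent.P216.PS Vale.Agent.P216.B7
open Vale.Agent.P216.H456 (PF PF_mono)
open Vale.Agent.P216.MV337 (evz)
open Vale.Agent.P216.H971.Low (ExC exC_of_exL ExC.mono ExC.congr ExC.add ExC.mul exL_PF
  coc0_joined exC_empty Dd dl_const neg_one_sq_pow)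
open Vale.Agent.P216.AS (IsMap IsHtpy)
open Vale.Agent.P216.H901 (tr)

section

variable {k : Type} [Field k] {α : Type}

/-- The coboundary on a concatenation. -/
theorem dl_append (σ : List α) : ∀ (f : List α → k) (l : List α),
    dl f (σ ++ l) = dl (fun τ => f (τ ++ l)) σ +
      (-1 : k) ^ σ.length * dl (fun l' => f (σ ++ l')) l := by
  induction σ with
  | nil =>
    intro f l
    rw [dl_nil, List.length_nil, pow_zero, one_mul, zero_add]
    rfl
  | cons x σ ih =>
    intro f l
    rw [List.cons_append, dl_cons, ih (fun m => f (x :: m)) l, dl_cons, List.length_cons, pow_succ]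
    have e1 : (fun τ => f (x :: τ ++ l)) = fun τ => (fun m => f (x :: m)) (τ ++ l) := rfl
    have e2 : (fun l' => f (x :: σ ++ l')) = fun l' => (fun m => f (x :: m)) (σ ++ l') := rfl
    rw [e1, e2]
    ring

end

variable {k : Type} [Field k] {M : Type} [MetricSpace M]

/-- The explicit double cochain. -/
noncomputable def zt (s : k) (U : List M → k) (η : List (ℝ →ᵇ M) → k) (σ : List (M × ℝ))
    (l : List (ℝ →ᵇ M)) : k :=
  if σ.length = 0 then 0 else (-1 : k) ^ σ.length * (s * U (σ.map Prod.fst ++ l.map evz)) +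
    if σ.length = 1 then η l else 0

variable {s : k} {U : List M → k} {η : List (ℝ →ᵇ M) → k} {σ : List (M × ℝ)} {l : List (ℝ →ᵇ M)}
  {q : ℕ} {ε₁ : ℝ}

theorem zt_one (v : M × ℝ) (l : List (ℝ →ᵇ M)) :
    zt s U η [v] l = -(s * U (v.1 :: l.map evz)) + η l := by
  unfold zt
  rw [if_neg (by simp), if_pos (by simp)]
  simp

theorem zt_ge (h : 2 ≤ σ.length) (l : List (ℝ →ᵇ M)) :
    zt s U η σ l = (-1 : k) ^ σ.length * (s * U (σ.map Prod.fst ++ l.map evz)) := by
  unfold zt
  rw [if_neg (by omega), if_neg (by omega), add_zero]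

theorem dd_zt (hU : ∀ l : List M, l.length = q + 3 → (∀ x ∈ l, ∀ y ∈ l, dist x y < ε₁) →
      dl U l = 0) (hσ : σ ≠ []) (hN : σ.length + l.length = q + 3)
    (hc : ∀ x ∈ σ.map Prod.fst ++ l.map evz, ∀ y ∈ σ.map Prod.fst ++ l.map evz, dist x y < ε₁)
    (hη : σ.length = 1 → dl η l = s * U (l.map evz)) : Dd (zt s U η) σ l = 0 := by
  have h0 : dl U (σ.map Prod.fst ++ l.map evz) = 0 :=
    hU _ (by rw [List.length_append, List.length_map, List.length_map]; exact hN) hc
  by_cases h1 : σ.length = 1
  · obtain ⟨v, rfl⟩ := List.length_eq_one_iff.1 h1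
    have h2 := hη h1
    unfold Dd
    rw [dl_one]
    have e0 : zt s U η [] l = 0 := by
      unfold zt
      rw [if_pos (by simp)]
    have e1 : zt s U η [v] = fun l => (-s) * (fun l' : List M => U (v.1 :: l')) (l.map evz) + η l := by
      funext l
      rw [zt_one]
      ring
    have e2 : dl (fun l => (fun l' : List M => U (v.1 :: l')) (l.map evz)) l =
        dl (fun l' : List M => U (v.1 :: l')) (l.map evz) :=
      dl_map (fun l' : List M => U (v.1 :: l')) evz l
    rw [e0, e1, Sl.dl_add, dl_mul_left, e2, h2]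
    have h3 : dl U (v.1 :: l.map evz) = 0 := h0
    rw [dl_cons] at h3
    rw [List.length_singleton]
    linear_combination s * h3
  · have h2 : 2 ≤ σ.length := by
      have := List.length_pos_iff.2 hσ
      omega
    obtain ⟨a, ha⟩ : ∃ a, σ.length = a + 2 := ⟨σ.length - 2, by omega⟩
    unfold Dd
    have e1 : dl (fun τ => zt s U η τ l) σ =
        dl (fun τ => ((-1 : k) ^ (a + 1) * s) *
          (fun τ' : List M => U (τ' ++ l.map evz)) (τ.map Prod.fst) +
          (if a = 0 then η l else 0)) σ := by
      refine dl_congr fun τ hτ hm => ?_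
      have hτa : τ.length = a + 1 := by omega
      show zt s U η τ l = _
      unfold zt
      rw [if_neg (by omega), hτa]
      by_cases ha0 : a = 0
      · rw [if_pos (by omega), if_pos ha0]
        ring
      · rw [if_neg (by omega), if_neg ha0]
        ring
    have e2 : dl (fun _ : List (M × ℝ) => (if a = 0 then η l else 0 : k)) σ = 0 := by
      rw [dl_const]
      by_cases ha0 : a = 0
      · rw [if_neg]
        rw [ha, ha0]
        decide
      · rw [if_neg ha0]
        simp
    have e3 : dl (fun τ : List (M × ℝ) => (fun τ' : List M => U (τ' ++ l.map evz))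
        (τ.map Prod.fst)) σ = dl (fun τ' : List M => U (τ' ++ l.map evz)) (σ.map Prod.fst) :=
      dl_map (fun τ' : List M => U (τ' ++ l.map evz)) Prod.fst σ
    have e4 : zt s U η σ = fun l => ((-1 : k) ^ (a + 2) * s) *
        (fun l' : List M => U (σ.map Prod.fst ++ l')) (l.map evz) := by
      funext l
      rw [zt_ge h2, ha]
      ring
    have e5 : dl (fun l : List (ℝ →ᵇ M) => (fun l' : List M => U (σ.map Prod.fst ++ l'))
        (l.map evz)) l = dl (fun l' : List M => U (σ.map Prod.fst ++ l')) (l.map evz) :=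
      dl_map (fun l' : List M => U (σ.map Prod.fst ++ l')) evz l
    rw [e1, Sl.dl_add, dl_mul_left, e2, e3, e4, dl_mul_left, e5, ha]
    rw [dl_append, List.length_map, ha] at h0
    have h3 := neg_one_sq_pow (k := k) (a + 1)
    have h4 : (-1 : k) ^ (a + 2) = -(-1 : k) ^ (a + 1) := by rw [pow_succ]; ring
    rw [h4] at h0 ⊢
    linear_combination ((-1 : k) ^ (a + 1) * s) * h0

theorem zt_replicate (nU : Nrm U) (v : M × ℝ) {n : ℕ} (hn : 2 ≤ n) (l : List (ℝ →ᵇ M)) :
    zt s U η (List.replicate n v) l = 0 := by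
  rw [zt_ge (by rw [List.length_replicate]; exact hn)]
  have e : U ((List.replicate n v).map Prod.fst ++ l.map evz) = 0 := by
    refine nU _ fun hc => ?_
    obtain ⟨n', rfl⟩ : ∃ n', n = n' + 2 := ⟨n - 2, by omega⟩
    rw [List.replicate_succ, List.replicate_succ, List.map_cons, List.map_cons, List.cons_append,
      List.cons_append, List.isChain_cons_cons] at hc
    exact hc.1 rfl
  rw [e, mul_zero, mul_zero]

/-- The first column is closed. -/
theorem coc_zt_one (hU : ∀ l : List M, l.length = q + 3 → (∀ x ∈ l, ∀ y ∈ l, dist x y < ε₁) →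
      dl U l = 0) (v : M × ℝ) (hN : l.length = q + 2)
    (hc : ∀ x ∈ v.1 :: l.map evz, ∀ y ∈ v.1 :: l.map evz, dist x y < ε₁)
    (hη : dl η l = s * U (l.map evz)) : dl (zt s U η [v]) l = 0 := by
  have h := dd_zt (η := η) (s := s) hU (σ := [v]) (l := l) (by simp) (by simp; omega) hc
    fun _ => hη
  unfold Dd at h
  rw [dl_one] at h
  have e0 : zt s U η [] l = 0 := by
    unfold zt
    rw [if_pos (by simp)]
  rw [e0, List.length_singleton] at h
  linear_combination h

end Vale.Agent.P216.H808
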